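import Vale.Agent.P093.N3W.Stages
import Vale.Agent.P093.N4.ThSplitU

/-!
# P093, part N3-W: `MU` with all its properties and its finite stages
-/

open CategoryTheory MonoidalCategory Limits Pretriangulated

set_option linter.unusedSectionVars false

universe v u

namespace Vale.Agent.P093.N3W

open Vale.Agent.P251 Vale.Agent.P251.G Vale.Agent.P251.G.LC Vale.Agent.P251.I
open Vale.Agent.P251.T Vale.Agent.P251.M Vale.Agent.P251.S
open Vale.Agent.P093.N.TT Vale.Agent.P093.N4

variable {T : Type u} [Category.{v} T] [Preadditive T] [HasZeroObject T]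
    [HasShift T ℤ] [∀ n : ℤ, (shiftFunctor T n).Additive] [Pretriangulated T] [IsTriangulated T]
    [MonoidalCategory T] [SymmetricCategory T] [TensorTriangulated T] [MonoidalClosed T]
    [HasCoproducts.{0} T] [HasProducts.{0} T] [StableCat T]

/-- **`MU` with all its properties, and its finite stages.** -/
theorem exists_muAll_stages (F : SpaceFunctor T) (e : F.S.obj CCF ≅ (stdEven T).L) :
    ∃ D : MUData T, MUUniv e D ∧ N0.MUAll D ∧ ThSpl F (UTri.ofMon D.R) ∧ HasStages D := by
  obtain ⟨M⟩ := nonempty_MUMon F (stdEven T) e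
  obtain ⟨b⟩ := M.nonempty_muBasis
  exact ⟨M.data b, M.muUniv b, N0.MUMon.muAll M b,
    thSpl_of_thSplit (TS.thSplit_of_orientation M.ori), exists_stage M b⟩

end Vale.Agent.P093.N3W
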