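import Vale.Agent.P251.M.BUPair

/-!
# P093, part N3-W: finite stages of the classes `β_i` of projective space

Let `B : BUData D`, `Q : WSplit B`: the collapse `(g 1) (N + 1) ⟶ (th 1) N` is the projection of a
direct sum decomposition `(g 1) (N + 1) = 𝟙 ⊕ (th 1) N`, and followed by `(th 1) N ⟶ (th 1) (N + 1)`
it is the zero section.

* `Q.stg N i : S i ⟶ (g 1) N`, `i < N` : the class `β_i`, on the projective space of dimension
  `N - 1`;
* `Q.cls_stg` : `cls N (stg N i) = β i`, `i < N`;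
* `IsBas w` : `f ↦ (w j ≫ f)_j` is bijective; `Q.isBas_stg`: the `stg N i`, `i < N` are a basis.
-/

open CategoryTheory MonoidalCategory Limits

universe v u

noncomputable section

namespace Vale.Agent.P093.N3W

open Vale.Agent.P251.M Vale.Agent.P251.M.CH

/-! ### Bases -/

section bas

variable {D : Type u} [Category.{v} D] {J : Type*}

/-- The family `w` is a basis: the maps `X ⟶ Z` are the families of maps `S j ⟶ Z`. -/
def IsBas {S : J → D} {X : D} (w : ∀ j, S j ⟶ X) : Prop :=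
  ∀ Z : D, Function.Bijective fun (f : X ⟶ Z) (j : J) => w j ≫ f

variable {S : J → D} {X : D} {w : ∀ j, S j ⟶ X}

theorem IsBas.ext (h : IsBas w) {Z : D} {f g : X ⟶ Z} (hfg : ∀ j, w j ≫ f = w j ≫ g) : f = g :=
  (h Z).1 (funext hfg)

theorem IsBas.exists (h : IsBas w) {Z : D} (k : ∀ j, S j ⟶ Z) : ∃ f : X ⟶ Z, ∀ j, w j ≫ f = k j := by
  obtain ⟨f, hf⟩ := (h Z).2 k
  exact ⟨f, fun j => congrFun hf j⟩

theorem IsBas.mk' (h1 : ∀ {Z : D} {f g : X ⟶ Z}, (∀ j, w j ≫ f = w j ≫ g) → f = g)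
    (h2 : ∀ {Z : D} (k : ∀ j, S j ⟶ Z), ∃ f : X ⟶ Z, ∀ j, w j ≫ f = k j) : IsBas w := by
  intro Z
  refine ⟨fun f g e => h1 fun j => congrFun e j, fun k => ?_⟩
  obtain ⟨f, hf⟩ := h2 k
  exact ⟨f, funext hf⟩

/-- change of the target -/
theorem IsBas.comp_iso (h : IsBas w) {Y : D} (φ : X ⟶ Y) [IsIso φ] :
    IsBas fun j => w j ≫ φ := by
  refine IsBas.mk' (fun {Z f g} e => ?_) (fun {Z} k => ?_)
  · rw [← cancel_epi φ]
    exact h.ext fun j => by simpa using e j
  · obtain ⟨f, hf⟩ := h.exists k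
    exact ⟨inv φ ≫ f, fun j => by simp [hf]⟩

/-- change of the sources -/
theorem IsBas.iso_comp (h : IsBas w) {S' : J → D} (φ : ∀ j, S' j ⟶ S j) [∀ j, IsIso (φ j)] :
    IsBas fun j => φ j ≫ w j := by
  refine IsBas.mk' (fun {Z f g} e => ?_) (fun {Z} k => ?_)
  · refine h.ext fun j => ?_
    rw [← cancel_epi (φ j)]
    simpa using e j
  · obtain ⟨f, hf⟩ := h.exists fun j => inv (φ j) ≫ k j
    exact ⟨f, fun j => by simp [hf]⟩

/-- image under an equivalence -/
theorem IsBas.map (h : IsBas w) {D' : Type*} [Category.{v} D'] (F : D ⥤ D') [F.IsEquivalence] :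
    IsBas fun j => F.map (w j) := by
  refine IsBas.mk' (fun {Z f g} e => ?_) (fun {Z} k => ?_)
  · let φ : F.obj (F.objPreimage Z) ≅ Z := F.objObjPreimageIso Z
    have h1 : F.preimage (f ≫ φ.inv) = F.preimage (g ≫ φ.inv) := by
      refine h.ext fun j => F.map_injective ?_
      rw [F.map_comp, F.map_comp, F.map_preimage, F.map_preimage, ← Category.assoc,
        ← Category.assoc]
      exact congrArg (· ≫ φ.inv) (e j)
    have h2 := congrArg F.map h1
    rw [F.map_preimage, F.map_preimage, cancel_mono] at h2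
    exact h2
  · let φ : F.obj (F.objPreimage Z) ≅ Z := F.objObjPreimageIso Z
    obtain ⟨f, hf⟩ := h.exists fun j => F.preimage (k j ≫ φ.inv)
    refine ⟨F.map f ≫ φ.hom, fun j => ?_⟩
    rw [← Category.assoc, ← F.map_comp, hf, F.map_preimage, Category.assoc, Iso.inv_hom_id,
      Category.comp_id]

end bas

theorem IsBas.whiskerRight {D : Type u} [Category.{v} D] [MonoidalCategory D] [SymmetricCategory D]
    {J : Type*} {S : J → D} {X : D} {w : ∀ j, S j ⟶ X} (h : IsBas w) (L : D) [IsInv L] :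
    IsBas fun j => w j ▷ L := by
  have := isEquivalence_tensorRight L
  exact h.map (tensorRight L)

/-! ### The splitting -/

variable {D : Type u} [Category.{v} D] [Preadditive D] [MonoidalCategory D]
    [SymmetricCategory D] [MonoidalPreadditive D]

/-- The splitting `(g 1) (N + 1) = 𝟙 ⊕ (th 1) N`. -/
structure WSplit (B : BUData D) where
  /-- the base point -/
  i (N : ℕ) : 𝟙_ D ⟶ (B.g 1).obj (N + 1)
  /-- the collapse -/
  χ (N : ℕ) : (B.g 1).obj (N + 1) ⟶ (B.th 1).obj N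
  /-- its section -/
  σ (N : ℕ) : (B.th 1).obj N ⟶ (B.g 1).obj (N + 1)
  i_eq (N : ℕ) : i N = B.pt1 ≫ (B.g 1).map (homOfLE (Nat.succ_le_succ (Nat.zero_le N)))
  σ_χ (N : ℕ) : σ N ≫ χ N = 𝟙 _
  σ_aug (N : ℕ) : σ N ≫ B.aug (N + 1) = 0
  tot (N : ℕ) : B.aug (N + 1) ≫ i N + χ N ≫ σ N = 𝟙 _
  χ_th (N : ℕ) : χ N ≫ (B.th 1).map (homOfLE (Nat.le_succ N)) = (B.z 1).app (N + 1)
  g_zero {Z : D} (f g : (B.g 1).obj 0 ⟶ Z) : f = g

namespace WSplit

variable {B : BUData D} (P : WSplit B)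

theorem i_aug (N : ℕ) : P.i N ≫ B.aug (N + 1) = 𝟙 _ := by
  rw [P.i_eq, Category.assoc, B.aug_map, B.pt1_aug]

/-- `S i ⊗ S 1 ≅ S (i + 1)` -/
abbrev mu1 (B : BUData D) (i : ℕ) : B.S ((i : ℕ) : ℤ) ⊗ B.S ((1 : ℕ) : ℤ) ≅
    B.S (((i + 1 : ℕ)) : ℤ) := B.mu _ _ _ (BUData.natCast_add_one i)

/-- The classes `β_i`, `i < N`, on the projective space of dimension `N - 1`. -/
def stg : ∀ N i : ℕ, B.S ((i : ℕ) : ℤ) ⟶ (B.g 1).obj N
  | 0, _ => 0
  | N + 1, 0 => B.e0N.inv ≫ P.i N
  | N + 1, i + 1 => (mu1 B i).inv ≫ (stg N i ▷ B.S ((1 : ℕ) : ℤ)) ≫ (B.θ 1).inv.app N ≫ P.σ N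

/-- The corresponding classes of the Thom space. -/
def tstg (N i : ℕ) : B.S ((i + 1 : ℕ) : ℤ) ⟶ (B.th 1).obj N :=
  (mu1 B i).inv ≫ (P.stg N i ▷ B.S ((1 : ℕ) : ℤ)) ≫ (B.θ 1).inv.app N

theorem stg_zero (N : ℕ) : P.stg (N + 1) 0 = B.e0N.inv ≫ P.i N := rfl

theorem stg_succ (N i : ℕ) : P.stg (N + 1) (i + 1) = P.tstg N i ≫ P.σ N := by
  change (mu1 B i).inv ≫ (P.stg N i ▷ B.S ((1 : ℕ) : ℤ)) ≫ (B.θ 1).inv.app N ≫ P.σ N = _
  simp only [tstg, Category.assoc]

theorem σ_zz (N : ℕ) : P.σ N ≫ (B.zz 1).app (N + 1) = (B.θ 1).hom.app N ≫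
    ((B.g 1).map (homOfLE (Nat.le_succ N)) ▷ B.S ((1 : ℕ) : ℤ)) := by
  rw [BUData.zz_app, ← P.χ_th, Category.assoc, reassoc_of% (P.σ_χ N), (B.θ 1).hom.naturality]
  rfl

/-- The classes `stg N i` are finite stages of the classes `β_i`. -/
theorem cls_stg (b : B.Beta) : ∀ N i : ℕ, i < N → (cls N (P.stg N i) : CH _ (B.g 1)) = b.β i := by
  intro N
  induction N with
  | zero => intro i hi; exact absurd hi (Nat.not_lt_zero i)
  | succ N ih =>
    intro i hi
    rcases i with _ | i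
    · rw [stg_zero, b.β_zero, ← pre_cls, BUData.ptc, P.i_eq, cls_map]
    · have h1 := ih i (Nat.lt_of_succ_lt_succ hi)
      rw [← sub_eq_zero]
      apply B.eq_zero_of_PhiT_aug
      · rw [map_sub, sub_eq_zero, b.β_succ i (BUData.natCast_add_one i), ← h1, tens_cls, pre_cls,
          BUData.PhiT_cls, stg_succ, Category.assoc, P.σ_zz, tstg]
        simp only [Category.assoc, Iso.inv_hom_id_app_assoc]
        rw [← Category.assoc]
        exact cls_map (X := B.g 1 ⋙ tensorRight (B.S ((1 : ℕ) : ℤ))) (Nat.le_succ N) _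
      · rw [map_sub, sub_eq_zero, b.β_aug, BUData.augC_cls, stg_succ, Category.assoc, P.σ_aug,
          comp_zero]

theorem isBas_tstg {N : ℕ} (h : IsBas fun j : Fin N => P.stg N j) :
    IsBas fun j : Fin N => P.tstg N j := by
  have h1 := ((h.whiskerRight (B.S ((1 : ℕ) : ℤ))).comp_iso ((B.θ 1).inv.app N)).iso_comp
    (fun j : Fin N => (mu1 B j).inv)
  exact h1

/-- **The basis.** -/
theorem isBas_stg (N : ℕ) : IsBas fun j : Fin N => P.stg N j := by
  induction N with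
  | zero =>
    refine IsBas.mk' (fun {Z f g} _ => P.g_zero f g) (fun {Z} k => ⟨0, fun j => j.elim0⟩)
  | succ N ih =>
    have ih' := P.isBas_tstg ih
    refine IsBas.mk' (fun {Z f g} e => ?_) (fun {Z} k => ?_)
    · have h0 : P.i N ≫ f = P.i N ≫ g := by
        have := e 0
        change P.stg (N + 1) 0 ≫ f = P.stg (N + 1) 0 ≫ g at this
        rw [stg_zero, Category.assoc, Category.assoc, cancel_epi] at this
        exact this
      have h1 : P.σ N ≫ f = P.σ N ≫ g := ih'.ext fun j => by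
        have := e j.succ
        change P.stg (N + 1) ((j : ℕ) + 1) ≫ f = P.stg (N + 1) ((j : ℕ) + 1) ≫ g at this
        rw [stg_succ, Category.assoc, Category.assoc] at this
        exact this
      rw [← Category.id_comp f, ← Category.id_comp g, ← P.tot N, Preadditive.add_comp,
        Preadditive.add_comp, Category.assoc, Category.assoc, Category.assoc, Category.assoc,
        h0, h1]
    · obtain ⟨f, hf⟩ := ih'.exists (Z := Z) fun j => k j.succ
      obtain ⟨k0, hk0⟩ : ∃ k0 : B.S ((0 : ℕ) : ℤ) ⟶ Z, k0 = k 0 := ⟨_, rfl⟩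
      refine ⟨B.aug (N + 1) ≫ B.e0N.hom ≫ k0 + P.χ N ≫ f, fun j => ?_⟩
      refine Fin.cases ?_ (fun j => ?_) j
      · refine Eq.trans ?_ hk0
        change P.stg (N + 1) 0 ≫ _ = _
        have h2 : P.i N ≫ P.χ N = 0 := by
          have h3 := congrArg (fun t => P.i N ≫ t ≫ P.χ N) (P.tot N)
          simp only [Preadditive.add_comp, Preadditive.comp_add, Category.assoc, P.σ_χ,
            Category.comp_id, Category.id_comp] at h3
          rw [← Category.assoc (P.i N) (B.aug (N + 1)), P.i_aug, Category.id_comp] at h3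
          simpa using h3
        rw [stg_zero, Preadditive.comp_add, Category.assoc, Category.assoc,
          reassoc_of% (P.i_aug N), Iso.inv_hom_id_assoc, reassoc_of% h2, zero_comp, comp_zero,
          add_zero]
      · change P.stg (N + 1) ((j : ℕ) + 1) ≫ _ = _
        rw [stg_succ, Preadditive.comp_add, Category.assoc, Category.assoc,
          reassoc_of% (P.σ_aug N), zero_comp, comp_zero, zero_add, reassoc_of% (P.σ_χ N)]
        exact hf j

end WSplit

end Vale.Agent.P093.N3W
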