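import Vale.Agent.P093.N3W.Stage
import Vale.Agent.P093.N.Nak1
import Vale.Agent.P251.M.BGlueC

/-!
# P093, part N3-W: the finite `K`-basis of `S^{-2} ⊗ ℂP^N`

`K` a commutative monoid with Thom classes `C`, `P : WSplit (buDataK C)`.

* `rbasis w h` : a basis `w` in the category of free `K`-modules is an `RBasis`;
* `CN F E N = Σ (Th 1 (Fin N)) ⊗ S^{-2}`, `thomMap C' N : CN F E N ⟶ R` (for Thom classes `C'` in `R`);
* `cnBasis C P N : RBasis E K (CN F E N) (Fin N)`, with `k i = i`;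
* `cnBasis_w_thomMap` : the image of `w i` under `K ◁ thomMap` is the class `b_i`.
-/

open CategoryTheory MonoidalCategory Limits Pretriangulated MonObj

universe v u

set_option linter.unusedSectionVars false

noncomputable section

namespace Vale.Agent.P093.N3W

open Vale.Agent.P251.G Vale.Agent.P251.G.LC Vale.Agent.P251.I Vale.Agent.P251.T
open Vale.Agent.P251.M Vale.Agent.P251.M.CH Vale.Agent.P251.M.EvenSpheres Vale.Agent.P093.Nak
open Vale.Agent.P251.S (ModStr)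

/-! ### Bases of free modules -/

section free

variable {T : Type u} [Category.{v} T] [MonoidalCategory T] [SymmetricCategory T]
  [MonoidalClosed T] [HasCoproducts.{0} T] {K : T} [MonObj K]

theorem isIso_bind {X Y : FM K} (f : X ⟶ Y) [IsIso f] : IsIso (FM.bind (FM.Hom.hom f)) := by
  refine ⟨FM.bind (FM.Hom.hom (inv f)), ?_, ?_⟩
  · rw [FM.bind_bind]
    change FM.bind (FM.Hom.hom (f ≫ inv f)) = _
    rw [IsIso.hom_inv_id, FM.id_hom, FM.bind_unit]
  · rw [FM.bind_bind]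
    change FM.bind (FM.Hom.hom (inv f ≫ f)) = _
    rw [IsIso.inv_hom_id, FM.id_hom, FM.bind_unit]

theorem isIso_desc {J : Type} {S : J → T} {X : T}
    (w : ∀ j, (FM.free K).obj (S j) ⟶ (FM.free K).obj X) (h : IsBas w) :
    IsIso (Sigma.desc fun j => lin (ModStr.free K X) (FM.Hom.hom (w j))) := by
  rw [← sigmaComparison_lin]
  have h1 : IsIso (sigmaComparison (tensorLeft K) S) := isIso_sigmaComparison S
  obtain ⟨W, hW⟩ : ∃ W : (FM.free K).obj (∐ S) ⟶ (FM.free K).obj X,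
    W = ⟨Sigma.desc fun j => FM.Hom.hom (w j)⟩ := ⟨_, rfl⟩
  have hι : ∀ j, (FM.free K).map (Sigma.ι S j) ≫ W = w j := by
    intro j
    apply FM.hom_ext
    refine (FM.free_map_comp_hom _ _).trans ?_
    rw [hW]
    exact Sigma.ι_desc _ _
  have hext : ∀ {Z : FM K} (f g : (FM.free K).obj (∐ S) ⟶ Z),
      (∀ j, (FM.free K).map (Sigma.ι S j) ≫ f = (FM.free K).map (Sigma.ι S j) ≫ g) → f = g := by
    intro Z f g e
    apply FM.hom_ext
    refine Sigma.hom_ext _ _ fun j => ?_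
    have e1 := congrArg FM.Hom.hom (e j)
    exact ((FM.free_map_comp_hom _ _).symm.trans e1).trans (FM.free_map_comp_hom _ _)
  have h2 : IsIso W := by
    obtain ⟨f, hf⟩ := h.exists fun j => (FM.free K).map (Sigma.ι S j)
    refine ⟨f, hext _ _ fun j => ?_, h.ext fun j => ?_⟩
    · rw [reassoc_of% (hι j), hf, Category.comp_id]
    · rw [reassoc_of% (hf j), hι, Category.comp_id]
  have h3 := isIso_bind W
  rw [hW] at h3
  have h4 : IsIso (lin (ModStr.free K X) (Sigma.desc fun j => FM.Hom.hom (w j))) := h3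
  infer_instance

/-- A basis in the category of free modules. -/
def rbasis {E : EvenSpheres T} {J : Type} (k : J → ℤ) {X : T}
    (w : ∀ j, (FM.free K).obj (E.S (k j)) ⟶ (FM.free K).obj X) (h : IsBas w) :
    RBasis E K X J where
  k := k
  w j := FM.Hom.hom (w j)
  isIso := isIso_desc w h

end free

/-! ### Desuspension -/

section desusp

variable {T : Type u} [Category.{v} T] [MonoidalCategory T] [SymmetricCategory T]
  (E : EvenSpheres T)

/-- `(R ⊗ S 1) ⊗ S (-1) ⟶ R` -/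
def desR (R : T) : (R ⊗ E.S ((1 : ℕ) : ℤ)) ⊗ E.S (-1) ⟶ R :=
  (α_ R (E.S ((1 : ℕ) : ℤ)) (E.S (-1))).hom ≫
    R ◁ ((E.mu ((1 : ℕ) : ℤ) (-1) 0 (by norm_num)).hom ≫ E.zero.inv) ≫ (ρ_ R).hom

@[reassoc]
theorem desR_naturality {R R' : T} (f : R ⟶ R') :
    ((f ▷ E.S ((1 : ℕ) : ℤ)) ▷ E.S (-1)) ≫ desR E R' = desR E R ≫ f := by
  unfold desR
  rw [associator_naturality_left_assoc, ← whisker_exchange_assoc, rightUnitor_naturality]
  simp only [Category.assoc]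

theorem mu_neg (i : ℕ) : ((i + 1 : ℕ) : ℤ) + (-1) = ((i : ℕ) : ℤ) := by push_cast; ring

theorem desR_mu (i : ℕ) : (E.mu _ _ _ (mu_neg i)).inv ≫
    ((E.mu _ _ _ (BUData.natCast_add_one i)).inv ▷ E.S (-1)) ≫ desR E (E.S ((i : ℕ) : ℤ)) =
      𝟙 _ := by
  unfold desR
  refine IsFr.unique (F := E.fr ((i : ℕ) : ℤ)) (G := E.fr ((i : ℕ) : ℤ)) (by omega) ?_ (IsFr.id _)
  refine IsFr.comp (by omega) (by omega) (IsFr.inv' (by omega) (E.isFr_mu _ _ _ (mu_neg i))) ?_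
  refine IsFr.comp (by omega) (by omega) (IsFr.whiskerRight (by omega)
    (IsFr.inv' (by omega) (E.isFr_mu _ _ _ (BUData.natCast_add_one i)))) ?_
  refine IsFr.comp (by omega) (by omega) (isFr_associator _ _ _) ?_
  exact IsFr.comp (by omega) (by omega) (IsFr.whiskerLeft (by omega)
    (IsFr.comp (by omega) (by omega) (E.isFr_mu ((1 : ℕ) : ℤ) (-1) 0 (by norm_num))
      E.isFr_zeroIso')) (isFr_rightUnitor _)

/-- Desuspension of a map. -/
theorem desusp {R : T} {i : ℕ} (y : E.S ((i : ℕ) : ℤ) ⟶ R) : (E.mu _ _ _ (mu_neg i)).inv ≫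
    (((E.mu _ _ _ (BUData.natCast_add_one i)).inv ≫ (y ▷ E.S ((1 : ℕ) : ℤ))) ▷ E.S (-1)) ≫
      desR E R = y := by
  rw [comp_whiskerRight, Category.assoc, desR_naturality, reassoc_of% (desR_mu E i)]

end desusp

/-! ### Free modules on spheres -/

section freeSph

variable {T : Type u} [Category.{v} T] [MonoidalCategory T] [SymmetricCategory T]
  (E : EvenSpheres T) {K : T} [MonObj K] [IsCommMonObj K]

theorem assoc_desR (R : T) : ((α_ K R (E.S ((1 : ℕ) : ℤ))).hom ▷ E.S (-1)) ≫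
    (α_ K (R ⊗ E.S ((1 : ℕ) : ℤ)) (E.S (-1))).hom ≫ K ◁ desR E R = desR E (K ⊗ R) := by
  unfold desR
  rw [MonoidalCategory.whiskerLeft_comp, MonoidalCategory.whiskerLeft_comp, pentagon_assoc,
    ← associator_naturality_right_assoc]
  congr 2
  monoidal

theorem desusp₂ {R : T} {i : ℕ} (g : E.S ((i : ℕ) : ℤ) ⟶ K ⊗ R) :
    ((E.mu _ _ _ (mu_neg i)).inv ≫ (((E.mu _ _ _ (BUData.natCast_add_one i)).inv ≫
      (g ▷ E.S ((1 : ℕ) : ℤ)) ≫ (α_ K R (E.S ((1 : ℕ) : ℤ))).hom) ▷ E.S (-1)) ≫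
      (α_ K (R ⊗ E.S ((1 : ℕ) : ℤ)) (E.S (-1))).hom) ≫ K ◁ desR E R = g := by
  refine Eq.trans ?_ (desusp E (R := K ⊗ R) g)
  rw [← assoc_desR]
  simp only [comp_whiskerRight, Category.assoc]

/-- Desuspension of a map of free modules. -/
theorem desuspK {R : T} {i : ℕ} (y : (FM.free K).obj (E.S ((i : ℕ) : ℤ)) ⟶ (FM.free K).obj R)
    (z : (FM.free K).obj (E.S ((i + 1 : ℕ) : ℤ)) ⟶ (FM.free K).obj (R ⊗ E.S ((1 : ℕ) : ℤ)))
    (hz : FM.Hom.hom z = (E.mu _ _ _ (BUData.natCast_add_one i)).inv ≫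
      (FM.Hom.hom y ▷ E.S ((1 : ℕ) : ℤ)) ≫ (α_ K R (E.S ((1 : ℕ) : ℤ))).hom)
    (t : (FM.free K).obj (E.S ((i : ℕ) : ℤ)) ⟶ (FM.free K).obj ((R ⊗ E.S ((1 : ℕ) : ℤ)) ⊗ E.S (-1)))
    (ht : FM.Hom.hom t = (E.mu _ _ _ (mu_neg i)).inv ≫ (FM.Hom.hom z ▷ E.S (-1)) ≫
      (α_ K (R ⊗ E.S ((1 : ℕ) : ℤ)) (E.S (-1))).hom) :
    t ≫ (FM.free K).map (desR E R) = y := by
  apply FM.hom_ext
  refine (FM.comp_free_map_hom _ _).trans ?_
  rw [ht, hz]
  exact desusp₂ E (FM.Hom.hom y)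

end freeSph

/-! ### The Thom space of the tautological line bundle -/

section abstr

variable {D : Type u} [Category.{v} D] [Preadditive D] [MonoidalCategory D]
    [SymmetricCategory D] [MonoidalPreadditive D]

/-- The classes `stg N i` define the classes `b_i`. -/
theorem stg_w {B : BMData D} (P : WSplit B.toBUData) {X : D} (κ : ∀ N, B.M.obj N ⟶ X)
    (hκ : ∀ {N N' : ℕ} (h : N ≤ N'), B.M.map (homOfLE h) ≫ κ N' = κ N)
    (b : B.toBUData.Beta) {N i a : ℕ} (hi : i < N) (h : 1 ≤ a) (h' : N ≤ a + 1) :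
    P.stg N i ≫ B.w h h' ≫ κ a = BMData.bX κ hκ b i := by
  have h1 : (cls N (P.stg N i) : CH _ (B.g 1)) = b.β i := P.cls_stg b N i hi
  have h2 : BMData.bX κ hκ b i = B.toX κ hκ _ (B.Om 1 (b.β i)) := rfl
  rw [h2, ← h1, B.Om_cls h h' (P.stg N i), BMData.toX_cls, Category.assoc]

variable {B : BTData D} (P : WSplit B.toBUData)
    {X : D} (κ : ∀ N, B.M.obj N ⟶ X)
    (hκ : ∀ {N N' : ℕ} (h : N ≤ N'), B.M.map (homOfLE h) ≫ κ N' = κ N)

theorem tstg_map_aux {N i a : ℕ} (h : 1 ≤ a) (h' : N ≤ a + 1) :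
    P.tstg N i ≫ B.q h h' ≫ (κ a ▷ B.S ((1 : ℕ) : ℤ)) =
      (B.mu _ _ _ (BUData.natCast_add_one i)).inv ≫
        ((P.stg N i ≫ B.w h h' ≫ κ a) ▷ B.S ((1 : ℕ) : ℤ)) := by
  rw [comp_whiskerRight, comp_whiskerRight, BTData.w_whisker, WSplit.tstg]
  simp only [Category.assoc]

/-- The image of the classes of the Thom space. -/
theorem tstg_map (b : B.toBUData.Beta) {N i a : ℕ} (hi : i < N) (h : 1 ≤ a) (h' : N ≤ a + 1) :
    P.tstg N i ≫ B.q h h' ≫ (κ a ▷ B.S ((1 : ℕ) : ℤ)) =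
      (B.mu _ _ _ (BUData.natCast_add_one i)).inv ≫
        (BMData.bX (B := B.toBMData) κ hκ b i ▷ B.S ((1 : ℕ) : ℤ)) :=
  (tstg_map_aux P κ h h').trans (congrArg
    (fun t : B.S ((i : ℕ) : ℤ) ⟶ X => (B.mu _ _ _ (BUData.natCast_add_one i)).inv ≫
      (t ▷ B.S ((1 : ℕ) : ℤ))) (stg_w (B := B.toBMData) P κ hκ b hi h h'))

end abstr

section main

variable {T : Type u} [Category.{v} T] [Preadditive T] [HasZeroObject T]
    [HasShift T ℤ] [∀ n : ℤ, (shiftFunctor T n).Additive] [Pretriangulated T] [IsTriangulated T]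
    [MonoidalCategory T] [SymmetricCategory T] [TensorTriangulated T] [MonoidalClosed T]
    [HasCoproducts.{0} T] [HasProducts.{0} T] [StableCat T]
    {F : SpaceFunctor T} {E : EvenSpheres T} {e : F.S.obj CCF ≅ E.L}
    {K : T} [MonObj K] [IsCommMonObj K]

/-- `Σ (Th 1 (Fin N)) ⊗ S^{-2}` -/
abbrev CN (F : SpaceFunctor T) (E : EvenSpheres T) (N : ℕ) : T := TO F.S 1 (Fin N) ⊗ E.S (-1)

variable {C : ThomSys.Cls (thomSys F E e) K} (P : WSplit (buDataK C))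

/-- the classes of the Thom space, typed -/
def tK (N i : ℕ) : (FM.free K).obj (E.S ((i + 1 : ℕ) : ℤ)) ⟶
    (FM.free K).obj (TO F.S 1 (Fin N)) := P.tstg N i

/-- the classes of the desuspension of the Thom space, before the identification of the source -/
def tK' (N i : ℕ) : (FM.free K).obj (E.S ((i + 1 : ℕ) : ℤ) ⊗ E.S (-1)) ⟶
    (FM.free K).obj (CN F E N) := (tK P N i ▷ (FM.free K).obj (E.S (-1)) :)

/-- the classes of the desuspension of the Thom space -/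
def cK (N i : ℕ) : (FM.free K).obj (E.S ((i : ℕ) : ℤ)) ⟶ (FM.free K).obj (CN F E N) :=
  (FM.free K).map (E.mu _ _ _ (mu_neg i)).inv ≫ tK' P N i

theorem isBas_cK (N : ℕ) : IsBas fun j : Fin N => cK P N j := by
  have h1 : IsBas fun j : Fin N => tK P N j := P.isBas_tstg (P.isBas_stg N)
  have : IsInv ((FM.free K).obj (E.S (-1)) : FM K) :=
    inferInstanceAs (IsInv ((sphK E K).S (-1)))
  have h2 : IsBas fun j : Fin N => tK' P N j := h1.whiskerRight ((FM.free K).obj (E.S (-1)))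
  exact h2.iso_comp (fun j : Fin N => (FM.free K).map (E.mu _ _ _ (mu_neg (j : ℕ))).inv)

theorem hom_tK' (N i : ℕ) : FM.Hom.hom (tK' P N i) =
    (FM.Hom.hom (tK P N i) ▷ E.S (-1)) ≫ (α_ K (TO F.S 1 (Fin N)) (E.S (-1))).hom :=
  hom_whiskerRight_free (tK P N i)

theorem hom_cK (N i : ℕ) : FM.Hom.hom (cK P N i) = (E.mu _ _ _ (mu_neg i)).inv ≫
    (FM.Hom.hom (tK P N i) ▷ E.S (-1)) ≫ (α_ K (TO F.S 1 (Fin N)) (E.S (-1))).hom :=
  (FM.free_map_comp_hom _ _).trans (congrArg (_ ≫ ·) (hom_tK' P N i))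

variable {R : T} [MonObj R] [IsCommMonObj R] (C' : ThomSys.Cls (thomSys F E e) R)

/-- the desuspension of the Thom class -/
def thomMap (N : ℕ) : CN F E N ⟶ R := (C'.τT 1 N ▷ E.S (-1)) ≫ desR E R

variable {C'} {j : ∀ a, (thomSys F E e).MU.E.obj a ⟶ R}
  (hC : ∀ (N a : ℕ) (h : 1 ≤ a) (h' : N ≤ a + 1),
      C'.τT 1 N = thomθ F E e h h' ≫ (j a ▷ E.S ((1 : ℕ) : ℤ)))
  (hj : ∀ {a a' : ℕ} (h : a ≤ a'), (thomSys F E e).MU.E.map (homOfLE h) ≫ j a' = j a)
  (b : (btDataK C).toBUData.Beta)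

/-- the class `b_i`, typed -/
def bK (i : ℕ) : (FM.free K).obj (E.S ((i : ℕ) : ℤ)) ⟶ (FM.free K).obj R :=
  BMData.bX (B := (btDataK C).toBMData) (kapF C j) (kapF_map C hj) b i

/-- its product with `S^2`, typed -/
def bK' (i : ℕ) : (FM.free K).obj (E.S ((i : ℕ) : ℤ) ⊗ E.S ((1 : ℕ) : ℤ)) ⟶
    (FM.free K).obj (R ⊗ E.S ((1 : ℕ) : ℤ)) :=
  (bK hj b i ▷ (FM.free K).obj (E.S ((1 : ℕ) : ℤ)) :)

theorem hom_bK' (i : ℕ) : FM.Hom.hom (bK' hj b i) =
    (FM.Hom.hom (bK hj b i) ▷ E.S ((1 : ℕ) : ℤ)) ≫ (α_ K R (E.S ((1 : ℕ) : ℤ))).hom :=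
  hom_whiskerRight_free (bK hj b i)

include hC in
theorem tK_map {N i : ℕ} (hi : i < N) : tK P N i ≫ (FM.free K).map (C'.τT 1 N) =
    (FM.free K).map (E.mu _ _ _ (BUData.natCast_add_one i)).inv ≫ bK' hj b i := by
  have h : 1 ≤ N + 1 := Nat.le_add_left 1 N
  have h' : N ≤ N + 1 + 1 := Nat.le_succ_of_le (Nat.le_succ N)
  have h1 : (FM.free K).map (C'.τT 1 N) = (btDataK C).q h h' ≫
      (kapF C j (N + 1) ▷ (btDataK C).S ((1 : ℕ) : ℤ)) := by
    rw [hC N (N + 1) h h', Functor.map_comp]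
    exact congrArg (_ ≫ ·) (FM.free_whiskerRight (j (N + 1)) (E.S ((1 : ℕ) : ℤ))).symm
  have h3 : ((btDataK C).mu _ _ _ (BUData.natCast_add_one i)).inv =
      (FM.free K).map (E.mu _ _ _ (BUData.natCast_add_one i)).inv :=
    push_mu_inv (SphD.ofEven E) (K := K) _ _ _ (BUData.natCast_add_one i)
  have h4 := tstg_map (B := btDataK C) P (kapF C j) (kapF_map C hj) b hi h h'
  rw [h3] at h4
  exact (congrArg (tK P N i ≫ ·) h1).trans h4

include hC in
/-- **The image of the classes under the Thom class are the classes `b_i`.** -/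
theorem cK_map {N i : ℕ} (hi : i < N) :
    cK P N i ≫ (FM.free K).map (thomMap C' N) = bK hj b i := by
  rw [thomMap, Functor.map_comp, ← Category.assoc]
  refine desuspK E (bK hj b i) (tK P N i ≫ (FM.free K).map (C'.τT 1 N)) ?_ _ ?_
  · rw [tK_map P hC hj b hi]
    exact (FM.free_map_comp_hom _ _).trans (congrArg (_ ≫ ·) (hom_bK' hj b i))
  · have h3 : cK P N i ≫ (FM.free K).map (C'.τT 1 N ▷ E.S (-1)) =
        (FM.free K).map (E.mu _ _ _ (mu_neg i)).inv ≫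
          (tK' P N i ≫ (FM.free K).map (C'.τT 1 N ▷ E.S (-1))) := Category.assoc _ _ _
    rw [h3]
    refine (FM.free_map_comp_hom _ _).trans (congrArg (_ ≫ ·) ?_)
    have h2 : tK' P N i ≫ (FM.free K).map (C'.τT 1 N ▷ E.S (-1)) =
        ((tK P N i ≫ (FM.free K).map (C'.τT 1 N)) ▷ (FM.free K).obj (E.S (-1)) :) := by
      rw [comp_whiskerRight, FM.free_whiskerRight]
      rfl
    rw [h2]
    exact hom_whiskerRight_free (tK P N i ≫ (FM.free K).map (C'.τT 1 N))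

end main

end Vale.Agent.P093.N3W
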