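import Vale.Agent.P251.M.MUEvenSeq

/-!
# P093, part N3-W: the finite stages `TO 1 (Fin (N + 1)) ⊗ S^(-2)` are finite even complexes
-/

open CategoryTheory MonoidalCategory Limits Pretriangulated
open Vale.Agent.P251.G Vale.Agent.P251.G.LC Vale.Agent.P251.I Vale.Agent.P251.T
  Vale.Agent.P251.S Vale.Agent.P251.H

universe v u

set_option linter.unusedSectionVars false

noncomputable section

namespace Vale.Agent.P093.N3W

open Vale.Agent.P251.M

variable {T : Type u} [Category.{v} T] [Preadditive T] [HasZeroObject T]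
    [HasShift T ℤ] [∀ n : ℤ, (shiftFunctor T n).Additive] [Pretriangulated T]
    [MonoidalCategory T] [SymmetricCategory T] [TensorTriangulated T] [IsTriangulated T]
  (F : SpaceFunctor T)

/-- The Thom spaces of the line bundles over projective spaces have cells in the even dimensions
`≥ 2`. -/
theorem evenCell_TO (e : F.S.obj CCF ≅ (stdEven T).L) (N : ℕ) :
    EvenCell T 1 (TO F.S 1 (Fin (N + 1))) := by
  have h1 : EvenCell T 1 (TO F.S 1 (Fin 1)) := by
    have i1 := isIso_lineTO F
    have h2 : EvenCell T 1 ((stdEven T).S 1) := by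
      obtain ⟨i⟩ := stdEven_sph (T := T) 1
      exact EvenCell.of_iso i.symm (EvenCell.sphere _ le_rfl)
    exact EvenCell.of_iso ((ρ_ (stdEven T).L) ≪≫ e.symm ≪≫ asIso (lineTO F)) h2
  obtain ⟨Z, g, h, D, hZ⟩ := TO.cofIn_j F (n := 1) (I := Fin 1) (J := Fin (N + 1)) (by simp) 1
    (by simp)
  exact (evenCell_extClosed 1).ext D h1 hZ

/-- `TO 1 (Fin (N + 1)) ⊗ S^(-2)` is a finite even complex with cells in the dimensions `≥ 0`. -/
theorem evenCell_stage (e : F.S.obj CCF ≅ (stdEven T).L) (N : ℕ) :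
    EvenCell T 0 (TO F.S 1 (Fin (N + 1)) ⊗ (stdEven T).S (-1)) := by
  obtain ⟨i⟩ := stdEven_sph (T := T) (-1)
  have h1 : EvenCell T (-1) ((stdEven T).S (-1)) :=
    EvenCell.of_iso i.symm (EvenCell.sphere _ le_rfl)
  exact (evenCell_TO F e N).tensor h1 0 (by norm_num)

end Vale.Agent.P093.N3W
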