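import Vale.Agent.P093.N3W.Basis
import Vale.Agent.P093.N.WGeo
import Vale.Agent.P093.N1.EBase
import Vale.Agent.P251.M.BGlueD
import Vale.Agent.P251.M.MUCells
import Vale.Agent.P251.M.MUFinal

/-!
# P093, part N3-W: finite stages of `MU` with a finite basis

`M : MUMon F (stdEven T) e`, `b : MUBasis M.V`, `D = M.data b`.

* `evenCell_CN` : `CN F (stdEven T) N = Σ (Th 1 (Fin N)) ⊗ S^{-2}` is an even cell object;
* `exists_stage M b N` : a map `x : C ⟶ D.R`, `C` an even cell object with a `D.R`-basis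
  `w_0, .., w_{N-1}` of `D.R ⊗ C`, `w_i` in degree `i`, whose image in `D.R ⊗ D.R` is `1` for `i = 0`
  and `D.ev 1 (X (last, i - 1))` for `i ≥ 1`.
-/

open CategoryTheory MonoidalCategory Limits Pretriangulated MonObj

universe v u

set_option linter.unusedSectionVars false

noncomputable section

namespace Vale.Agent.P093.N3W

open Vale.Agent.P251.G Vale.Agent.P251.G.LC Vale.Agent.P251.I Vale.Agent.P251.T Vale.Agent.P251.F
open Vale.Agent.P251.M Vale.Agent.P251.M.CH Vale.Agent.P251.M.EvenSpheres Vale.Agent.P093.Nak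
open Vale.Agent.P251.S (ModStr Am inlM inrM)
open Vale.Agent.P093.N1 Vale.Agent.P093.N.WGeo

variable {T : Type u} [Category.{v} T] [Preadditive T] [HasZeroObject T]
    [HasShift T ℤ] [∀ n : ℤ, (shiftFunctor T n).Additive] [Pretriangulated T] [IsTriangulated T]
    [MonoidalCategory T] [SymmetricCategory T] [TensorTriangulated T] [MonoidalClosed T]
    [HasCoproducts.{0} T] [HasProducts.{0} T] [StableCat T]

/-! ### Cells -/

section cell

variable (F : SpaceFunctor T)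

theorem isZero_TO_zero : IsZero (TO F.S 1 (Fin 0)) :=
  F.isZero (X := ThF 1 (Fin 0)) (by
    refine ⟨fun x : Th 1 (Fin 0) => ?_⟩
    have h : IsEmpty (Gr (0 + 1) (Fin 0)) := inferInstance
    exact h.elim ⟨x.P, x.isProj⟩)

theorem evenCell_TO (N : ℕ) : EvenCell T 1 (TO F.S 1 (Fin N)) := by
  have h : Fintype.card (Fin 0) ≤ Fintype.card (Fin N) := by simp
  obtain ⟨Z, g, k, hD, hZ⟩ := TO.cofIn_j (n := 1) F h 1 (by simp)
  exact EvenCell.ext (Triangle.mk _ g k) hD (EvenCell.zero _ (isZero_TO_zero F)) hZ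

theorem evenCell_std (n : ℤ) : EvenCell T n ((stdEven T).S n) :=
  (EvenCell.sphere n le_rfl).of_iso ((stdEven T).sphIso (Iso.refl _) n).symm

theorem evenCell_CN (N : ℕ) : EvenCell T 0 (CN F (stdEven T) N) :=
  (evenCell_TO F N).tensor (evenCell_std (-1)) 0 (by norm_num)

end cell

/-! ### The stages -/

section stages

variable {F : SpaceFunctor T} {e : F.S.obj CCF ≅ (stdEven T).L} (M : MUMon F (stdEven T) e)

/-- the splitting over `Am R 1` -/
abbrev spl : WSplit (buDataK M.clsAm) := wsplit M.clsAm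

/-- The basis of `Am R 1 ⊗ C_N`. -/
def amBasis (N : ℕ) : RBasis (stdEven T) (Am M.R 1) (CN F (stdEven T) N) (Fin N) :=
  rbasis (fun i : Fin N => ((i : ℕ) : ℤ)) (fun i => cK (spl M) N i) (isBas_cK (spl M) N)

/-- the desuspended Thom class -/
def thomMU (N : ℕ) : CN F (stdEven T) N ⟶ M.R := thomMap M.cls N

/-- the classes of the basis, typed -/
def aw (N i : ℕ) : (stdEven T).S ((i : ℕ) : ℤ) ⟶ Am M.R 1 ⊗ CN F (stdEven T) N :=
  FM.Hom.hom (cK (spl M) N i)

/-- the class `b_i`, typed -/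
def ab (β : (btDataK M.clsAm).toBUData.Beta) (i : ℕ) :
    (stdEven T).S ((i : ℕ) : ℤ) ⟶ Am M.R 1 ⊗ M.R :=
  FM.Hom.hom (BMReal.bb (M.realK M.clsAm) (β : (bmDataK M.clsAm).toBUData.Beta) i)

theorem aw_thom (β : (btDataK M.clsAm).toBUData.Beta) {N i : ℕ} (hi : i < N) :
    aw M N i ≫ Am M.R 1 ◁ thomMU M N = ab M β i := by
  have h := cK_map (spl M) (C' := M.cls) (j := M.ι) (fun _ _ h h' => M.cls_τ h h')
    (fun h => M.tel.comp h) β hi
  exact (FM.comp_free_map_hom _ _).symm.trans (congrArg FM.Hom.hom h)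

/-- the value on the unit -/
theorem of_ab_zero (β : (btDataK M.clsAm).toBUData.Beta) :
    HRing.of (stdEven T) (Am M.R 1 ⊗ M.R) ((0 : ℕ) : ℤ) (ab M β 0) = 1 := by
  have h := BMReal.bb_zero (M.realK M.clsAm) (β : (bmDataK M.clsAm).toBUData.Beta)
  have h1 : ab M β 0 = (stdEven T).zero.inv ≫ η[Am M.R 1 ⊗ M.R] := by
    refine (congrArg FM.Hom.hom h).trans ?_
    have h2 : (bmDataK M.clsAm).e0.inv = (FM.free (Am M.R 1)).map (stdEven T).zero.inv :=
      push_e0_inv (SphD.ofEven (stdEven T)) (K := Am M.R 1)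
    rw [h2, ← FM.one_hom_free]
    exact FM.free_map_comp_hom (R := Am M.R 1) (stdEven T).zero.inv _
  rw [h1]
  rfl

/-- the value on the coordinate functions -/
theorem of_ab_succ (β : (btDataK M.clsAm).toBUData.Beta) (b : MUBasis M.V) (i : ℕ) :
    HRing.of (stdEven T) (Am M.R 1 ⊗ M.R) ((i + 1 : ℕ) : ℤ) (ab M β (i + 1)) =
      (M.data b).ev 1 (MvPolynomial.X (Fin.last 0, i)) :=
  (((M.amEv_eq_cmpC i).trans (M.coefK_cmp β (i + 1)))).symm

theorem of_stage (β : (btDataK M.clsAm).toBUData.Beta) {N i : ℕ} (hi : i < N) :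
    HRing.of (stdEven T) (M.R ⊗ M.R) ((i : ℕ) : ℤ)
      ((aw M N i ≫ amOne M.R ▷ CN F (stdEven T) N) ≫ M.R ◁ thomMU M N) =
      HRing.map (amOne M.R ▷ M.R)
        (HRing.of (stdEven T) (Am M.R 1 ⊗ M.R) ((i : ℕ) : ℤ) (ab M β i)) := by
  rw [HRing.map_of, ← aw_thom M β hi, Category.assoc, Category.assoc, whisker_exchange]

/-- **The stages of `MU`.** -/
theorem exists_stage (b : MUBasis M.V) (N : ℕ) :
    ∃ (C : T) (x : C ⟶ (M.data b).R) (w : RBasis (stdEven T) (M.data b).R C (Fin N)),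
      EvenCell T 0 C ∧ (∀ i, w.k i = ((i : ℕ) : ℤ)) ∧
      (∀ i : Fin N, (i : ℕ) = 0 → HRing.of (stdEven T) ((M.data b).R ⊗ (M.data b).R) (w.k i)
        (w.w i ≫ (M.data b).R ◁ x) = 1) ∧
      ∀ (i : Fin N) (j : ℕ), (i : ℕ) = j + 1 →
        HRing.of (stdEven T) ((M.data b).R ⊗ (M.data b).R) (w.k i) (w.w i ≫ (M.data b).R ◁ x) =
          HRing.map (amOne (M.data b).R ▷ (M.data b).R)
            ((M.data b).ev 1 (MvPolynomial.X (Fin.last 0, j))) := by
  obtain ⟨β⟩ : Nonempty (btDataK M.clsAm).toBUData.Beta := MUMon.exists_betaK M.clsAm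
  refine ⟨CN F (stdEven T) N, thomMU M N, pushB (amOne M.R) (amBasis M N), evenCell_CN F N,
    fun i => rfl, ?_, ?_⟩
  · rintro ⟨i, hi⟩ (rfl : i = 0)
    refine (of_stage M β hi).trans ?_
    rw [of_ab_zero, map_one]
    rfl
  · rintro ⟨i, hi⟩ j (rfl : i = j + 1)
    refine (of_stage M β hi).trans ?_
    rw [of_ab_succ M β b j]
    rfl

end stages

/-- The stages of `D`: finite even cell objects over `D.R` with a basis dual to the powers of the
Euler class of projective space. -/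
def HasStages (D : MUData T) : Prop :=
  ∀ N : ℕ, ∃ (C : T) (x : C ⟶ D.R) (w : RBasis (stdEven T) D.R C (Fin N)),
    EvenCell T 0 C ∧ (∀ i, w.k i = ((i : ℕ) : ℤ)) ∧
    (∀ i : Fin N, (i : ℕ) = 0 → HRing.of (stdEven T) (D.R ⊗ D.R) (w.k i)
      (w.w i ≫ D.R ◁ x) = 1) ∧
    ∀ (i : Fin N) (j : ℕ), (i : ℕ) = j + 1 →
      HRing.of (stdEven T) (D.R ⊗ D.R) (w.k i) (w.w i ≫ D.R ◁ x) =
        HRing.map (amOne D.R ▷ D.R) (D.ev 1 (MvPolynomial.X (Fin.last 0, j)))

/-- `MUAll`, `ThSpl` and `HasStages` for one `D` with `MUUniv e D`. -/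
theorem exists_hasStages (F : SpaceFunctor T) (e : F.S.obj CCF ≅ (stdEven T).L) :
    ∃ D : MUData T, MUUniv e D ∧ HasStages D := by
  obtain ⟨M⟩ := nonempty_MUMon F (stdEven T) e
  obtain ⟨b⟩ := M.nonempty_muBasis
  exact ⟨M.data b, M.muUniv b, exists_stage M b⟩

end Vale.Agent.P093.N3W
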